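import Vale.Agent.P160.Fin

open Filter Topology

namespace Vale.Agent.Results.P160.RateHalf

/-- The real symmetric `n × n` matrices all of whose entries are `1` or `-1`. -/
def symSign (n : ℕ) : Set (Matrix (Fin n) (Fin n) ℝ) :=
  {A | A.IsSymm ∧ ∀ i j, A i j = 1 ∨ A i j = -1}

/-- The probability that a uniformly random symmetric sign matrix is singular. -/
noncomputable def q (n : ℕ) : ℝ :=
  (Set.ncard {A ∈ symSign n | A.det = 0} : ℝ) / (Set.ncard (symSign n) : ℝ)

theorem q_eq (n : ℕ) : q n = Vale.Agent.P160.qs n := by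
  classical
  let f : Vale.Agent.P160.Om n → Matrix (Fin n) (Fin n) ℝ :=
    fun ω => (Vale.Agent.P160.smat ω).map (Int.castRingHom ℝ)
  have hf : ∀ ω i j, f ω i j = if ω s(i, j) then 1 else -1 := by
    intro ω i j
    simp only [f, Matrix.map_apply, Vale.Agent.P160.smat]
    split_ifs <;> simp
  have inj : Function.Injective f := by
    intro ω ω' h
    funext e
    induction e using Sym2.ind with
    | _ i j =>
      have h1 := congrFun (congrFun h i) j
      rw [hf, hf] at h1
      revert h1
      cases ω s(i, j) <;> cases ω' s(i, j) <;> norm_num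
  have hr : symSign n = f '' Set.univ := by
    ext A
    constructor
    · rintro ⟨hs, hA⟩
      refine ⟨Sym2.lift ⟨fun i j => decide (A i j = 1), fun i j => by simp only [hs.apply i j]⟩,
        trivial, ?_⟩
      ext i j
      rw [hf]
      rcases hA i j with h | h
      · simp [h]
      · have h1 : ¬ ((-1 : ℝ) = 1) := by norm_num
        simp [h, h1]
    · rintro ⟨ω, -, rfl⟩
      refine ⟨Matrix.IsSymm.ext fun i j => by rw [hf, hf, Sym2.eq_swap], fun i j => ?_⟩
      rw [hf]
      split_ifs <;> simp
  have hd : ∀ ω, (f ω).det = ((Vale.Agent.P160.smat ω).det : ℝ) := fun ω =>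
    ((Int.castRingHom ℝ).map_det _).symm
  have hz : {A ∈ symSign n | A.det = 0} = f '' {ω | (Vale.Agent.P160.smat ω).det = 0} := by
    ext A
    rw [hr]
    constructor
    · rintro ⟨⟨ω, -, rfl⟩, h⟩
      rw [hd] at h
      exact ⟨ω, by exact_mod_cast h, rfl⟩
    · rintro ⟨ω, h, rfl⟩
      refine ⟨⟨ω, trivial, rfl⟩, ?_⟩
      rw [hd]
      exact_mod_cast h
  unfold q Vale.Agent.P160.qs Vale.Agent.P160.pr
  rw [hz, hr, Set.ncard_image_of_injective _ inj, Set.ncard_image_of_injective _ inj,
    Set.ncard_univ, Nat.card_eq_fintype_card, Vale.Agent.P160.cnt_eq, ← Set.ncard_coe_finset]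
  congr 3
  ext ω
  simp

/-- The singularity probability of symmetric random sign matrices is `(1/2 + o(1))^n`. -/
theorem result : Tendsto (fun n : ℕ => q n ^ (1 / (n : ℝ))) atTop (𝓝 (1 / 2)) := by
  simp only [q_eq]
  exact Vale.Agent.P160.final

end Vale.Agent.Results.P160.RateHalf
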